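import Mathlib

/-!
# P013, general sieve form: definitions (helper499)
-/

namespace Vale.Agent.P013.H499

/-- Jacobsthal's function: the least positive `m` such that every set `{x + 1, …, x + m}` of `m`
consecutive integers contains an integer coprime to `n`. -/
noncomputable def jac (n : ℕ) : ℕ :=
  sInf {m : ℕ | 0 < m ∧ ∀ x : ℤ, ∃ t : ℤ, x < t ∧ t ≤ x + m ∧ Int.gcd t n = 1}

/-- `h k` is the supremum of `jac n` over the `n ≥ 1` with at most `k` distinct prime factors. -/
noncomputable def h (k : ℕ) : ℕ :=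
  sSup {m : ℕ | ∃ n : ℕ, 1 ≤ n ∧ n.primeFactors.card ≤ k ∧ m = jac n}

/-- the number of integers `t` with `x < t ≤ x + y` such that `t` is not congruent to `a p` modulo `p`,
for any `p` of the finite set `P` -/
noncomputable def unsieved (P : Finset ℕ) (a : ℕ → ℤ) (x : ℤ) (y : ℕ) : ℕ :=
  {t : ℤ | x < t ∧ t ≤ x + y ∧ ∀ p ∈ P, ¬ (p : ℤ) ∣ t - a p}.ncard

/-- the number of integers `t` with `x < t ≤ x + y` such that `a + q t` is coprime to `n` -/
noncomputable def coprimeTerms (n : ℕ) (a q x : ℤ) (y : ℕ) : ℕ :=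
  {t : ℤ | x < t ∧ t ≤ x + y ∧ Int.gcd (a + q * t) n = 1}.ncard

end Vale.Agent.P013.H499
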