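import Vale.Agent.P013.H499.Defs
import Vale.Agent.P013.Bdl.B1

/-!
# P013, general sieve form: proofs (helper499)
-/

namespace Vale.Agent.P013.H499

open Finset Real Vale.Agent.P013.J

/-- Chinese remainder theorem for a finite set of primes -/
theorem crt (P : Finset ℕ) (hP : ∀ p ∈ P, p.Prime) (a : ℕ → ℤ) :
    ∃ V : ℤ, ∀ p ∈ P, (p : ℤ) ∣ V - a p := by
  classical
  induction P using Finset.induction_on with
  | empty => exact ⟨0, by simp⟩
  | insert q P hq ih =>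
    obtain ⟨V, hV⟩ := ih fun p hp => hP p (Finset.mem_insert_of_mem hp)
    have hqp : q.Prime := hP q (Finset.mem_insert_self q P)
    have hco : IsCoprime (∏ p ∈ P, (p : ℤ)) (q : ℤ) := by
      apply IsCoprime.prod_left
      intro p hp
      rw [Nat.isCoprime_iff_coprime]
      refine (Nat.coprime_primes (hP p (Finset.mem_insert_of_mem hp)) hqp).2 ?_
      rintro rfl
      exact hq hp
    obtain ⟨u, v, huv⟩ := hco
    refine ⟨V + (∏ p ∈ P, (p : ℤ)) * (u * (a q - V)), fun p hp => ?_⟩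
    rcases Finset.mem_insert.1 hp with rfl | hp
    · refine ⟨(V - a p) * v, ?_⟩
      linear_combination (-(V - a p)) * huv
    · have h1 : (p : ℤ) ∣ ∏ p ∈ P, (p : ℤ) := Finset.dvd_prod_of_mem _ hp
      have h2 : V + (∏ p ∈ P, (p : ℤ)) * (u * (a q - V)) - a p =
          (V - a p) + (∏ p ∈ P, (p : ℤ)) * (u * (a q - V)) := by ring
      rw [h2]
      exact dvd_add (hV p hp) (h1.mul_right _)

theorem unsieved_finite (P : Finset ℕ) (a : ℕ → ℤ) (x : ℤ) (y : ℕ) :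
    {t : ℤ | x < t ∧ t ≤ x + y ∧ ∀ p ∈ P, ¬ (p : ℤ) ∣ t - a p}.Finite :=
  (Set.finite_Ioc x (x + y)).subset fun _ ht => ⟨ht.1, ht.2.1⟩

/-- the comparison -/
theorem surv_le (P : Finset ℕ) (hP : ∀ p ∈ P, p.Prime) (a : ℕ → ℤ) (x : ℤ) (y : ℕ) (z : ℝ) (hz : 0 < z) :
    ∃ V : ℤ, (surv y z V : ℝ) ≤
      unsieved P a x y + ((P.filter fun p : ℕ => z ≤ (p : ℝ)).card : ℝ) * (y / z + 1) := by
  classical
  obtain ⟨V, hV⟩ := crt P hP (fun p => a p - x)
  refine ⟨V, ?_⟩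
  set T : Set ℤ := {t : ℤ | x < t ∧ t ≤ x + y ∧ ∀ p ∈ P, ¬ (p : ℤ) ∣ t - a p} with hT
  set Q : Finset ℕ := P.filter fun p : ℕ => z ≤ (p : ℝ) with hQ
  have hTf : T.Finite := unsieved_finite P a x y
  -- the good ones
  set G : Finset ℕ := (Icc 1 y).filter fun i : ℕ => x + (i : ℤ) ∈ T with hG
  have hGc : G.card ≤ unsieved P a x y := by
    have h1 : (G.image fun i : ℕ => x + (i : ℤ)).card = G.card :=
      Finset.card_image_of_injective _ fun i j hij => by simpa using hij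
    rw [← h1, ← Set.ncard_coe_finset]
    refine Set.ncard_le_ncard ?_ hTf
    intro t ht
    rw [Finset.mem_coe, Finset.mem_image] at ht
    obtain ⟨i, hi, rfl⟩ := ht
    exact (Finset.mem_filter.1 hi).2
  have hsub : (Icc 1 y).filter
      (fun i : ℕ => ∀ p : ℕ, p.Prime → (p : ℝ) < z → ¬ (p : ℤ) ∣ (i : ℤ) - V) ⊆
      G ∪ Q.biUnion (fun p => (Icc 1 y).filter (fun i : ℕ => (p : ℤ) ∣ (i : ℤ) - (a p - x))) := by
    intro i hi
    rw [Finset.mem_filter, Finset.mem_Icc] at hi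
    obtain ⟨⟨hi1, hi2⟩, hi3⟩ := hi
    rw [Finset.mem_union]
    by_cases hb : ∃ p ∈ Q, (p : ℤ) ∣ (i : ℤ) - (a p - x)
    · right
      obtain ⟨p, hp, hpd⟩ := hb
      rw [Finset.mem_biUnion]
      exact ⟨p, hp, Finset.mem_filter.2 ⟨Finset.mem_Icc.2 ⟨hi1, hi2⟩, hpd⟩⟩
    · left
      push Not at hb
      rw [hG, Finset.mem_filter, Finset.mem_Icc]
      refine ⟨⟨hi1, hi2⟩, ?_, ?_, fun p hp => ?_⟩
      · omega
      · omega
      · have e : x + (i : ℤ) - a p = (i : ℤ) - (a p - x) := by ring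
        rw [e]
        by_cases hpz : z ≤ (p : ℝ)
        · exact hb p (Finset.mem_filter.2 ⟨hp, hpz⟩)
        · push Not at hpz
          intro hd
          refine hi3 p (hP p hp) hpz ?_
          have e2 : (i : ℤ) - V = ((i : ℤ) - (a p - x)) - (V - (a p - x)) := by ring
          rw [e2]
          exact dvd_sub hd (hV p hp)
  have hcard : surv y z V ≤ G.card +
      ∑ p ∈ Q, ((Icc 1 y).filter (fun i : ℕ => (p : ℤ) ∣ (i : ℤ) - (a p - x))).card := by
    have h1 : surv y z V ≤ (G ∪ Q.biUnion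
        (fun p => (Icc 1 y).filter (fun i : ℕ => (p : ℤ) ∣ (i : ℤ) - (a p - x)))).card := by
      unfold surv
      convert Finset.card_le_card hsub
    exact h1.trans ((Finset.card_union_le _ _).trans (Nat.add_le_add_left Finset.card_biUnion_le _))
  have hbad : ∀ p ∈ Q, (((Icc 1 y).filter (fun i : ℕ => (p : ℤ) ∣ (i : ℤ) - (a p - x))).card : ℝ) ≤
      y / z + 1 := by
    intro p hp
    obtain ⟨hp1, hp2⟩ := Finset.mem_filter.1 hp
    have h3 := fin_card_dvd y p (hP p hp1).pos (a p - x)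
    have h4 : (y : ℝ) / p ≤ y / z := div_le_div_of_nonneg_left (by positivity) hz hp2
    linarith only [h3, h4]
  calc (surv y z V : ℝ) ≤ ((G.card +
      ∑ p ∈ Q, ((Icc 1 y).filter (fun i : ℕ => (p : ℤ) ∣ (i : ℤ) - (a p - x))).card : ℕ) : ℝ) :=
        Nat.cast_le.2 hcard
    _ = (G.card : ℝ) +
      ∑ p ∈ Q, (((Icc 1 y).filter (fun i : ℕ => (p : ℤ) ∣ (i : ℤ) - (a p - x))).card : ℝ) := by
        push_cast; rfl
    _ ≤ (unsieved P a x y : ℝ) + ∑ p ∈ Q, ((y : ℝ) / z + 1) :=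
        add_le_add (Nat.cast_le.2 hGc) (Finset.sum_le_sum hbad)
    _ = _ := by rw [Finset.sum_const, nsmul_eq_mul]

/-- growth facts -/
theorem growth (A c : ℝ) (hc : 0 < c) : ∃ y₁ : ℕ, ∀ y : ℕ, y₁ ≤ y →
    1 ≤ log y ∧ 4 / c ≤ log y ∧ (log y) ^ (A + 2) ≤ (c / 4) * √y := by
  have h1 : ∀ᶠ y : ℝ in Filter.atTop, 1 ≤ log y := tendsto_log_atTop.eventually_ge_atTop 1
  have h2 : ∀ᶠ y : ℝ in Filter.atTop, 4 / c ≤ log y := tendsto_log_atTop.eventually_ge_atTop _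
  have h3 : ∀ᶠ y : ℝ in Filter.atTop, (log y) ^ (A + 2) ≤ (c / 4) * √y := by
    have h := (isLittleO_log_rpow_rpow_atTop (A + 2) (by norm_num : (0 : ℝ) < 1 / 2)).def
      (by positivity : 0 < c / 4)
    filter_upwards [h, h1] with y hy hy1
    rw [Real.norm_eq_abs, Real.norm_eq_abs, ← Real.sqrt_eq_rpow,
      abs_of_nonneg (Real.sqrt_nonneg _)] at hy
    exact (le_abs_self _).trans hy
  have h4 := (tendsto_natCast_atTop_atTop (R := ℝ)).eventually (h1.and (h2.and h3))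
  obtain ⟨N, hN⟩ := Filter.eventually_atTop.1 h4
  exact ⟨N, hN⟩

/-- **the sieve beyond the square root**: arbitrary residue classes modulo all the primes below
`√y (log y)^A` and modulo `√y (log y)^A` further primes -/
theorem sieve (h : TStarStmt) (A : ℝ) (hA : 0 < A) : ∃ c : ℝ, 0 < c ∧ ∃ y₀ : ℕ, ∀ y : ℕ, y₀ ≤ y →
    ∀ P : Finset ℕ, (∀ p ∈ P, p.Prime) →
      ((P.filter fun p : ℕ => √y * (log y) ^ A ≤ (p : ℝ)).card : ℝ) ≤ √y * (log y) ^ A →
      ∀ (a : ℕ → ℤ) (x : ℤ), c * y / (log y) ^ 2 ≤ unsieved P a x y := by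
  obtain ⟨c, hc, y₀, hT⟩ := h (A + 3) (by positivity)
  obtain ⟨y₁, hy₁⟩ := growth A c hc
  refine ⟨c / 2, by positivity, max y₀ y₁, fun y hy P hP hcard a x => ?_⟩
  obtain ⟨a1, a2, a3⟩ := hy₁ y ((le_max_right _ _).trans hy)
  set l : ℝ := log y with hl
  have hl0 : 0 < l := by linarith only [a1]
  have hy0 : (0 : ℝ) < y := by
    rcases Nat.eq_zero_or_pos y with h0 | h0
    · exfalso
      rw [hl, h0] at a1
      norm_num at a1
    · exact_mod_cast h0
  have hsy : 0 < √(y : ℝ) := Real.sqrt_pos.2 hy0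
  set z : ℝ := √y * l ^ (A + 3) with hz
  have hz0 : 0 < z := by positivity
  have hzz : √(y : ℝ) * l ^ A ≤ z := by
    rw [hz]
    refine mul_le_mul_of_nonneg_left (Real.rpow_le_rpow_of_exponent_le a1 (by linarith)) hsy.le
  obtain ⟨V, hV⟩ := surv_le P hP a x y z hz0
  have hs := hT y ((le_max_left _ _).trans hy) V
  have hk2 : ((P.filter fun p : ℕ => z ≤ (p : ℝ)).card : ℝ) ≤ √y * l ^ A := by
    refine le_trans ?_ hcard
    refine Nat.cast_le.2 (Finset.card_le_card fun p hp => ?_)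
    obtain ⟨h1, h2⟩ := Finset.mem_filter.1 hp
    exact Finset.mem_filter.2 ⟨h1, hzz.trans h2⟩
  set k : ℝ := ((P.filter fun p : ℕ => z ≤ (p : ℝ)).card : ℝ) with hk
  have b1 : k * (y / z) ≤ c / 4 * (y / l ^ 2) := by
    have b2 : k * (y / z) ≤ (√y * l ^ A) * (y / z) :=
      mul_le_mul_of_nonneg_right hk2 (by positivity)
    have b3 : (√(y : ℝ) * l ^ A) * (y / z) = y / l ^ 3 := by
      rw [hz, Real.rpow_add hl0, Real.rpow_ofNat]
      have : l ^ A ≠ 0 := (Real.rpow_pos_of_pos hl0 _).ne'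
      field_simp
    have b4 : (y : ℝ) / l ^ 3 ≤ c / 4 * (y / l ^ 2) := by
      have b5 : 1 ≤ c / 4 * l := by
        rw [div_le_iff₀ hc] at a2
        linarith only [a2]
      rw [div_le_iff₀ (by positivity)]
      calc (y : ℝ) = 1 * y := (one_mul _).symm
        _ ≤ (c / 4 * l) * y := mul_le_mul_of_nonneg_right b5 hy0.le
        _ = c / 4 * (y / l ^ 2) * l ^ 3 := by field_simp
    linarith only [b2, b3, b4]
  have b6 : k ≤ c / 4 * (y / l ^ 2) := by
    have b7 : l ^ (A + 2) = l ^ A * l ^ 2 := by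
      rw [Real.rpow_add hl0, Real.rpow_ofNat]
    rw [b7] at a3
    refine hk2.trans ?_
    have b8 : √(y : ℝ) * √y = y := Real.mul_self_sqrt hy0.le
    rw [← mul_div_assoc, le_div_iff₀ (by positivity)]
    calc (√y * l ^ A) * l ^ 2 = √y * (l ^ A * l ^ 2) := by ring
      _ ≤ √y * (c / 4 * √y) := mul_le_mul_of_nonneg_left a3 hsy.le
      _ = c / 4 * (√y * √y) := by ring
      _ = c / 4 * y := by rw [b8]
  have b9 : c * (y : ℝ) / l ^ 2 = c * (y / l ^ 2) := by ring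
  have b9' : c / 2 * (y : ℝ) / l ^ 2 = c / 2 * (y / l ^ 2) := by ring
  have b10 : k * (y / z + 1) = k * (y / z) + k := by ring
  rw [b9] at hs
  rw [b9']
  linarith only [hs, hV, b1, b6, b10]

/-- **the form with `k` primes** -/
theorem kform (h : TStarStmt) (B : ℝ) (hB : 0 < B) : ∃ C c : ℝ, 0 < C ∧ 0 < c ∧
    ∀ k : ℕ, 2 ≤ k → ∀ P : Finset ℕ, (∀ p ∈ P, p.Prime) → P.card ≤ k →
      ∀ (a : ℕ → ℤ) (x : ℤ) (y : ℕ), C * (k : ℝ) ^ 2 / (log k) ^ B ≤ y →
        c * y / (log y) ^ 2 ≤ unsieved P a x y := by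
  obtain ⟨c, hc, y₀, hS⟩ := sieve h (B / 2) (by positivity)
  obtain ⟨y₁, hy₁⟩ := growth (B / 2) 1 one_pos
  set C₀ : ℝ := max 1 (B ^ B) with hC₀
  have hC₀1 : 1 ≤ C₀ := le_max_left _ _
  have hC₀B : B ^ B ≤ C₀ := le_max_right _ _
  have hC₀0 : 0 < C₀ := by linarith only [hC₀1]
  refine ⟨C₀ * (max y₀ y₁ + 1), c, by positivity, hc, fun k hk P hP hPk a x y hy => ?_⟩
  have hkR : (2 : ℝ) ≤ k := by exact_mod_cast hk
  have hk0 : (0 : ℝ) < k := by linarith only [hkR]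
  have hlogk : 0 < log (k : ℝ) := Real.log_pos (by linarith only [hkR])
  set Q : ℝ := (k : ℝ) ^ 2 / (log k) ^ B with hQ
  have hlB : 0 < (log (k : ℝ)) ^ B := Real.rpow_pos_of_pos hlogk B
  have hlB2 : (log (k : ℝ)) ^ B ≤ C₀ * k :=
    (fin_log_pow B hB k hk).trans (mul_le_mul_of_nonneg_right hC₀B hk0.le)
  have hkQ : (k : ℝ) ≤ C₀ * Q := by
    rw [hQ, ← mul_div_assoc, le_div_iff₀ hlB]
    calc (k : ℝ) * (log k) ^ B ≤ k * (C₀ * k) := mul_le_mul_of_nonneg_left hlB2 hk0.le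
      _ = C₀ * (k : ℝ) ^ 2 := by ring
  have hQ0 : 0 < Q := by positivity
  rw [mul_div_assoc, ← hQ] at hy
  have hm0 : (0 : ℝ) ≤ ((max y₀ y₁ : ℕ) : ℝ) := Nat.cast_nonneg _
  have hcq : C₀ * (((max y₀ y₁ : ℕ) : ℝ) + 1) * Q =
      (((max y₀ y₁ : ℕ) : ℝ)) * (C₀ * Q) + C₀ * Q := by ring
  have hone : 1 ≤ C₀ * Q := by linarith only [hkR, hkQ]
  have hy' : C₀ * (((max y₀ y₁ : ℕ) : ℝ) + 1) * Q ≤ y := by
    refine le_trans (le_of_eq ?_) hy
    push_cast
    ring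
  have hyQ : C₀ * Q ≤ y := by
    rw [hcq] at hy'
    have := mul_nonneg hm0 (le_trans zero_le_one hone)
    linarith only [hy', this]
  have hym : ((max y₀ y₁ : ℕ) : ℝ) ≤ y := by
    rw [hcq] at hy'
    have := mul_le_mul_of_nonneg_left hone hm0
    linarith only [hy', this, hone]
  have hym' : max y₀ y₁ ≤ y := by exact_mod_cast hym
  obtain ⟨a1, a2, a3⟩ := hy₁ y ((le_max_right _ _).trans hym')
  have hky : (k : ℝ) ≤ y := hkQ.trans hyQ
  have hy0 : (0 : ℝ) < y := by linarith only [hkR, hkQ, hyQ]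
  set l : ℝ := log y with hl
  have hl0 : 0 < l := by linarith only [a1]
  have hk2 : (k : ℝ) ≤ √y * l ^ (B / 2) := by
    have e1 : (k : ℝ) ^ 2 ≤ y * l ^ B := by
      have e2 : (k : ℝ) ^ 2 = Q * (log k) ^ B := by
        rw [hQ, div_mul_cancel₀ _ hlB.ne']
      have e3 : Q ≤ y := by
        refine le_trans ?_ hyQ
        linarith only [mul_nonneg (sub_nonneg.2 hC₀1) (le_of_lt (sub_pos.2 hQ0))]
      have e4 : (log (k : ℝ)) ^ B ≤ l ^ B :=
        Real.rpow_le_rpow hlogk.le (Real.log_le_log hk0 hky) hB.le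
      rw [e2]
      exact mul_le_mul e3 e4 hlB.le hy0.le
    have e5 : (√(y : ℝ) * l ^ (B / 2)) ^ 2 = y * l ^ B := by
      rw [mul_pow, Real.sq_sqrt hy0.le, ← Real.rpow_natCast, ← Real.rpow_mul hl0.le]
      congr 2
      push_cast
      ring
    rw [← e5] at e1
    exact (sq_le_sq₀ hk0.le (by positivity)).1 e1
  refine hS y ((le_max_left _ _).trans hym') P hP ?_ a x
  refine le_trans ?_ hk2
  exact_mod_cast (Finset.card_filter_le _ _).trans hPk

/-- coprime terms of an arithmetic progression -/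
theorem progression (n : ℕ) (hn : 1 ≤ n) (a q : ℤ) (hq : ∀ p : ℕ, p.Prime → p ∣ n → (p : ℤ) ∣ q → ¬ (p : ℤ) ∣ a) :
    ∃ b : ℕ → ℤ, ∀ (x : ℤ) (y : ℕ),
      unsieved (n.primeFactors.filter fun p : ℕ => ¬ (p : ℤ) ∣ q) b x y = coprimeTerms n a q x y := by
  classical
  have hb : ∀ p : ℕ, ∃ b : ℤ, p ∈ n.primeFactors.filter (fun p : ℕ => ¬ (p : ℤ) ∣ q) →
      ∀ t : ℤ, (p : ℤ) ∣ t - b ↔ (p : ℤ) ∣ a + q * t := by
    intro p
    by_cases hp : p ∈ n.primeFactors.filter (fun p : ℕ => ¬ (p : ℤ) ∣ q)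
    · obtain ⟨h1, h2⟩ := Finset.mem_filter.1 hp
      have hpp := Nat.prime_of_mem_primeFactors h1
      have hco : IsCoprime q (p : ℤ) := by
        rw [isCoprime_comm]
        exact (Nat.prime_iff_prime_int.1 hpp).coprime_iff_not_dvd.2 h2
      obtain ⟨u, v, huv⟩ := hco
      refine ⟨-(u * a), fun _ t => ⟨fun ⟨w, hw⟩ => ?_, fun ⟨w, hw⟩ => ?_⟩⟩
      · refine ⟨q * w + v * a, ?_⟩
        linear_combination q * hw - a * huv
      · refine ⟨u * w + v * t, ?_⟩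
        linear_combination u * hw - t * huv
    · exact ⟨0, fun h => (hp h).elim⟩
  choose b hb using hb
  refine ⟨b, fun x y => ?_⟩
  unfold unsieved coprimeTerms
  congr 1
  ext t
  simp only [Set.mem_ofPred_eq]
  refine and_congr_right fun _ => and_congr_right fun _ => ⟨fun h1 => ?_, fun h1 p hp hd => ?_⟩
  · by_contra hne
    obtain ⟨p, hp, hpd⟩ := Nat.exists_prime_and_dvd hne
    have e1 : (p : ℤ) ∣ a + q * t := (Int.natCast_dvd_natCast.2 hpd).trans (Int.gcd_dvd_left ..)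
    have e2 : p ∣ n := by
      have : (p : ℤ) ∣ (n : ℤ) := (Int.natCast_dvd_natCast.2 hpd).trans (Int.gcd_dvd_right ..)
      exact Int.natCast_dvd_natCast.1 this
    by_cases hpq : (p : ℤ) ∣ q
    · refine hq p hp e2 hpq ?_
      have e3 : a = (a + q * t) - q * t := by ring
      rw [e3]
      exact dvd_sub e1 (hpq.mul_right t)
    · have hm : p ∈ n.primeFactors.filter (fun p : ℕ => ¬ (p : ℤ) ∣ q) :=
        Finset.mem_filter.2 ⟨Nat.mem_primeFactors.2 ⟨hp, e2, by omega⟩, hpq⟩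
      exact h1 p hm ((hb p hm t).2 e1)
  · have e1 := (hb p hp t).1 hd
    obtain ⟨hm, _⟩ := Finset.mem_filter.1 hp
    have hpp := Nat.prime_of_mem_primeFactors hm
    have e2 : (p : ℤ) ∣ (Int.gcd (a + q * t) n : ℤ) :=
      Int.dvd_coe_gcd e1 (Int.natCast_dvd_natCast.2 (Nat.dvd_of_mem_primeFactors hm))
    rw [h1] at e2
    have e3 : p ∣ 1 := by exact_mod_cast e2
    exact hpp.one_lt.ne' (Nat.dvd_one.1 e3)

end Vale.Agent.P013.H499
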